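import Vale.Agent.Results.P100.AStrip
import Vale.Agent.Results.P100.AThinStrip
import Vale.Agent.Results.P100.ANearHyperbola
import Vale.Agent.Results.P100.ALaneEmdenRegion

/-! Conjunction of the complementary hand-ins of this problem. -/

open Vale.Agent.Lib.P100

/-- The conjunction of the statements of: AStrip, AThinStrip, ANearHyperbola, ALaneEmdenRegion. -/
theorem Vale.Agent.Results.P100.A0Conj.result :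
    (∀ (n : ℕ) (hn : 5 ≤ n) (p q : ℝ) (hp : 0 < p) (hq : 0 < q) (hpq : 1 < p * q)
    (hα : 2 * (p + 1) / (p * q - 1) ≤ (n : ℝ) - 3)
    (hβ : 2 * (q + 1) / (p * q - 1) ≤ (n : ℝ) - 3)
    (hgap : (n : ℝ) - 3 + Real.sqrt n / 2 ≤ 2 * (p + 1) / (p * q - 1) + 2 * (q + 1) / (p * q - 1))
    (u v : (Fin n → ℝ) → ℝ) (hu : ContDiff ℝ 3 u) (hv : ContDiff ℝ 3 v)
    (upos : ∀ x, 0 < u x) (vpos : ∀ x, 0 < v x)
    (eq1 : ∀ x, - lap u x = v x ^ p) (eq2 : ∀ x, - lap v x = u x ^ q),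
      False) ∧
    (∀ (n : ℕ) (hn : 5 ≤ n) (p q : ℝ) (hp : 0 < p) (hq : 0 < q) (hpq : 1 < p * q)
    (hα : 2 * (p + 1) / (p * q - 1) ≤ (n : ℝ) - 3)
    (hβ : 2 * (q + 1) / (p * q - 1) ≤ (n : ℝ) - 3)
    (hE : max (2 * (p + 1) / (p * q - 1)) (2 * (q + 1) / (p * q - 1)) ≤
      (4 * min (2 * (p + 1) / (p * q - 1)) (2 * (q + 1) / (p * q - 1)) + 2) *
        (2 * (p + 1) / (p * q - 1) + 2 * (q + 1) / (p * q - 1) - ((n : ℝ) - 2)))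
    (u v : (Fin n → ℝ) → ℝ) (hu : ContDiff ℝ 3 u) (hv : ContDiff ℝ 3 v)
    (upos : ∀ x, 0 < u x) (vpos : ∀ x, 0 < v x)
    (eq1 : ∀ x, - lap u x = v x ^ p) (eq2 : ∀ x, - lap v x = u x ^ q),
      False) ∧
    (∀ (n : ℕ) (p q : ℝ) (hp : 0 < p) (hq : 0 < q) (hpq : 1 < p * q)
    (hα : 2 * (p + 1) / (p * q - 1) ≤ (n : ℝ) - 3)
    (hβ : 2 * (q + 1) / (p * q - 1) ≤ (n : ℝ) - 3)
    (hgap : (n = 5 ∧ (3.015 : ℝ) ≤ 2 * (p + 1) / (p * q - 1) + 2 * (q + 1) / (p * q - 1)) ∨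
      (n = 6 ∧ (4.04 : ℝ) ≤ 2 * (p + 1) / (p * q - 1) + 2 * (q + 1) / (p * q - 1)) ∨
      (n = 7 ∧ (5.05 : ℝ) ≤ 2 * (p + 1) / (p * q - 1) + 2 * (q + 1) / (p * q - 1)) ∨
      (n = 8 ∧ (6.09 : ℝ) ≤ 2 * (p + 1) / (p * q - 1) + 2 * (q + 1) / (p * q - 1)) ∨
      (n = 9 ∧ (7.14 : ℝ) ≤ 2 * (p + 1) / (p * q - 1) + 2 * (q + 1) / (p * q - 1)))
    (u v : (Fin n → ℝ) → ℝ) (hu : ContDiff ℝ 3 u) (hv : ContDiff ℝ 3 v)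
    (upos : ∀ x, 0 < u x) (vpos : ∀ x, 0 < v x)
    (eq1 : ∀ x, - lap u x = v x ^ p) (eq2 : ∀ x, - lap v x = u x ^ q),
      False) ∧
    (∀ (n : ℕ) (hn : 3 ≤ n) (p q : ℝ) (hpq : 1 < p * q)
    (hP : 2 < ((n : ℝ) - 2) * p) (hQ : 2 < ((n : ℝ) - 2) * q)
    (hs1 : ((n : ℝ) - 1) ^ 2 < 2 * ((n : ℝ) - 2) * (((n : ℝ) - 2) * p - 1) * (((n : ℝ) - 2) * p - 2))
    (hs2 : ((n : ℝ) - 1) ^ 2 < 2 * ((n : ℝ) - 2) * (((n : ℝ) - 2) * q - 1) * (((n : ℝ) - 2) * q - 2))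
    (hreg : (((n : ℝ) - 2) * p) * (((n : ℝ) - 2) * q) *
        ((((n : ℝ) - 2) * p - 2) * (((n : ℝ) - 2) * q - 2)) < (n : ℝ) ^ 2 * ((n : ℝ) + 2) ^ 2)
    (u v : (Fin n → ℝ) → ℝ) (hu : ContDiff ℝ 3 u) (hv : ContDiff ℝ 3 v)
    (upos : ∀ x, 0 < u x) (vpos : ∀ x, 0 < v x)
    (eq1 : ∀ x, - lap u x = v x ^ p) (eq2 : ∀ x, - lap v x = u x ^ q),
      False) :=
  ⟨@Vale.Agent.Results.P100.AStrip.result, @Vale.Agent.Results.P100.AThinStrip.result, @Vale.Agent.Results.P100.ANearHyperbola.result, @Vale.Agent.Results.P100.ALaneEmdenRegion.result⟩
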